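import Vale.Agent.Lib.P262.Family

/-!
Helper development for P262: an explicit list of sixteen vectors in the unit ball of `ℝ^3`
forcing squared norm `437/100`, checked by an integer computation.
-/

namespace Vale.Agent.Lib.P262

/-- squared length of an integer triple -/
def nsq (s : ℤ × ℤ × ℤ) : ℤ := s.1 * s.1 + s.2.1 * s.2.1 + s.2.2 * s.2.2

/-- integer version of `Forces` -/
def chk (r : ℤ) : ℤ × ℤ × ℤ → List (ℤ × ℤ × ℤ) → Bool
  | s, [] => decide (r ≤ nsq s)
  | s, w :: L => decide (r ≤ nsq s) ||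
      (chk r (s.1 + w.1, s.2.1 + w.2.1, s.2.2 + w.2.2) L &&
        chk r (s.1 - w.1, s.2.1 - w.2.1, s.2.2 - w.2.2) L)

/-- an integer triple, scaled by `1/10000`, as a point of `ℝ^3` -/
noncomputable def emb (s : ℤ × ℤ × ℤ) : EuclideanSpace ℝ (Fin 3) :=
  !₂[(s.1 : ℝ) / 10000, (s.2.1 : ℝ) / 10000, (s.2.2 : ℝ) / 10000]

theorem emb_norm_sq (s : ℤ × ℤ × ℤ) : ‖emb s‖ ^ 2 = (nsq s : ℝ) / 100000000 := by
  rw [EuclideanSpace.real_norm_sq_eq]
  simp [emb, nsq, Fin.sum_univ_three]
  ring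

theorem emb_add (s w : ℤ × ℤ × ℤ) :
    emb s + emb w = emb (s.1 + w.1, s.2.1 + w.2.1, s.2.2 + w.2.2) := by
  ext i
  fin_cases i <;> simp [emb] <;> ring

theorem emb_sub (s w : ℤ × ℤ × ℤ) :
    emb s - emb w = emb (s.1 - w.1, s.2.1 - w.2.1, s.2.2 - w.2.2) := by
  ext i
  fin_cases i <;> simp [emb] <;> ring

theorem forces_of_chk (r : ℤ) : ∀ (L : List (ℤ × ℤ × ℤ)) (s : ℤ × ℤ × ℤ), chk r s L = true →
    Forces ((r : ℝ) / 100000000) (emb s) (L.map emb)
  | [], s, h => by
    have h1 : r ≤ nsq s := by simpa [chk] using h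
    show (r : ℝ) / 100000000 ≤ ‖emb s‖ ^ 2
    rw [emb_norm_sq]
    have : (r : ℝ) ≤ (nsq s : ℝ) := by exact_mod_cast h1
    linarith
  | w :: L, s, h => by
    simp only [chk, Bool.or_eq_true, Bool.and_eq_true, decide_eq_true_eq] at h
    rcases h with h1 | ⟨h1, h2⟩
    · refine Or.inl ?_
      rw [emb_norm_sq]
      have : (r : ℝ) ≤ (nsq s : ℝ) := by exact_mod_cast h1
      linarith
    · refine Or.inr ⟨?_, ?_⟩
      · rw [emb_add]; exact forces_of_chk r L _ h1
      · rw [emb_sub]; exact forces_of_chk r L _ h2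

/-- the sixteen vectors (times `10000`) -/
def cert : List (ℤ × ℤ × ℤ) :=
  [(-5706, -5437, 6154), (-2695, 9532, 1364), (4781, -893, 8737), (-1464, 9865, -727),
   (5208, -8152, -2533), (1123, -5036, 8566), (7120, -6277, 3147), (9127, -3623, 1888),
   (7940, -4998, -3459), (4433, -8958, -312), (6975, 413, 7153), (709, 9878, -1385),
   (8698, -4133, 2695), (-4839, 8382, -2512), (-7115, -5655, 4171), (1711, 8928, -4165)]

theorem cert_chk : chk 437000000 (0, 0, 0) cert = true := by decide +kernel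

theorem cert_small : ∀ w ∈ cert, nsq w ≤ 100000000 := by decide +kernel

theorem kills_three : Kills 3 (437 / 100) := by
  refine ⟨cert.map emb, ?_, ?_⟩
  · intro x hx
    obtain ⟨w, hw, rfl⟩ := List.mem_map.mp hx
    have h1 := emb_norm_sq w
    have h2 : (nsq w : ℝ) ≤ 100000000 := by exact_mod_cast cert_small w hw
    have h3 : 0 ≤ ‖emb w‖ := norm_nonneg _
    nlinarith
  · have h := forces_of_chk 437000000 cert (0, 0, 0) cert_chk
    have e : emb (0, 0, 0) = 0 := by
      ext i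
      fin_cases i <;> simp [emb]
    rw [e] at h
    have e2 : ((437000000 : ℤ) : ℝ) / 100000000 = 437 / 100 := by norm_num
    rw [e2] at h
    exact h

theorem kills_ge_three (d : ℕ) (hd : 3 ≤ d) : Kills d ((d : ℝ) + 137 / 100) := by
  obtain ⟨m, rfl⟩ := Nat.exists_eq_add_of_le hd
  have h := kills_three.add m
  have e : ((3 + m : ℕ) : ℝ) + 137 / 100 = 437 / 100 + (m : ℝ) := by push_cast; ring
  rw [e]
  exact h

end Vale.Agent.Lib.P262
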