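import Vale.Agent.Lib.P262.Lift

/-!
Helper development for P262: from forcing lists to finite families indexed by `Fin N`.
-/

namespace Vale.Agent.Lib.P262

theorem Kills.family {d : ℕ} {r : ℝ} (h : Kills d r) :
    ∃ (N : ℕ) (v : Fin N → EuclideanSpace ℝ (Fin d)), (∀ i, ‖v i‖ ≤ 1) ∧
      ∀ ε : Fin N → ℝ, (∀ i, ε i = 1 ∨ ε i = -1) →
        ∃ k : ℕ, k ≤ N ∧ r ≤ ‖∑ i : Fin N with i.val < k, ε i • v i‖ ^ 2 := by
  obtain ⟨L, hL, hF⟩ := h
  refine ⟨L.length, fun i => L.get i, fun i => hL _ (List.get_mem L i), ?_⟩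
  intro ε hε
  obtain ⟨k, hk, hr⟩ := Forces.exists_lsum L 0 hF
    (fun i => if h : i < L.length then decide (ε ⟨i, h⟩ = 1) else true)
  refine ⟨k, hk, ?_⟩
  rw [zero_add] at hr
  have key : ∑ i : Fin L.length with i.val < k, ε i • L.get i =
      lsum L (fun i => if h : i < L.length then decide (ε ⟨i, h⟩ = 1) else true) k := by
    unfold lsum
    rw [Finset.sum_filter]
    have h1 : ∑ i : Fin L.length, (if i.val < k then ε i • L.get i else 0) =
        ∑ i : Fin L.length, (fun j : ℕ => if j < k then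
          (if h : j < L.length then ε ⟨j, h⟩ • L.get ⟨j, h⟩ else 0) else 0) i.val := by
      refine Finset.sum_congr rfl (fun i _ => ?_)
      simp
    rw [h1]
    refine (Fin.sum_univ_eq_sum_range (fun j : ℕ => if j < k then
          (if h : j < L.length then ε ⟨j, h⟩ • L.get ⟨j, h⟩ else 0) else 0) L.length).trans ?_
    rw [← Finset.sum_filter]
    have hfil : (Finset.range L.length).filter (fun i => i < k) = Finset.range k := by
      ext i
      simp only [Finset.mem_filter, Finset.mem_range]
      omega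
    rw [hfil]
    refine Finset.sum_congr rfl (fun i hi => ?_)
    have hi' : i < L.length := lt_of_lt_of_le (Finset.mem_range.mp hi) hk
    rw [dif_pos hi']
    beta_reduce
    rw [dif_pos hi']
    rw [List.getD_eq_getElem _ _ hi']
    rcases hε ⟨i, hi'⟩ with h1 | h1
    · simp [h1]
    · have : ¬ ((-1 : ℝ) = 1) := by norm_num
      simp [h1, this]
  rw [key]
  exact hr

end Vale.Agent.Lib.P262
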