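import Mathlib

/-!
Helper development for P262: a list-based description of the signed partial sum game.
`Forces s L r` says: starting from the vector `s`, for every choice of signs for the
vectors of the list `L`, some partial sum has squared norm at least `r`.
-/

namespace Vale.Agent.Lib.P262

open scoped RealInnerProductSpace

variable {E : Type*} [NormedAddCommGroup E] [InnerProductSpace ℝ E]

/-- every signing of `L`, started from `s`, has a partial sum of squared norm at least `r` -/
def Forces (r : ℝ) : E → List E → Prop
  | s, [] => r ≤ ‖s‖ ^ 2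
  | s, w :: L => r ≤ ‖s‖ ^ 2 ∨ (Forces r (s + w) L ∧ Forces r (s - w) L)

theorem Forces.of_le {r : ℝ} {s : E} (h : r ≤ ‖s‖ ^ 2) (L : List E) : Forces r s L := by
  cases L with
  | nil => exact h
  | cons w L => exact Or.inl h

theorem Forces.neg {r : ℝ} : ∀ (L : List E) (s : E), Forces r s L → Forces r (-s) L
  | [], s, h => by simpa [Forces] using h
  | w :: L, s, h => by
    rcases h with h | ⟨h1, h2⟩
    · exact Or.inl (by simpa using h)
    · refine Or.inr ⟨?_, ?_⟩
      · have := Forces.neg L _ h2
        simpa [neg_sub, sub_eq_add_neg, add_comm] using this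
      · have := Forces.neg L _ h1
        simpa [neg_add, sub_eq_add_neg, add_comm] using this

/-- signed sum of the first `k` entries of a list, signs given by `e : ℕ → Bool` -/
noncomputable def lsum (L : List E) (e : ℕ → Bool) (k : ℕ) : E :=
  ∑ i ∈ Finset.range k, (if e i then (L.getD i 0) else -(L.getD i 0))

theorem Forces.exists_lsum {r : ℝ} : ∀ (L : List E) (s : E), Forces r s L →
    ∀ e : ℕ → Bool, ∃ k, k ≤ L.length ∧ r ≤ ‖s + lsum L e k‖ ^ 2
  | [], s, h, e => ⟨0, le_rfl, by simpa [lsum, Forces] using h⟩
  | w :: L, s, h, e => by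
    rcases h with h | ⟨h1, h2⟩
    · exact ⟨0, Nat.zero_le _, by simpa [lsum] using h⟩
    · have key : ∀ k, lsum (w :: L) e (k + 1) =
          (if e 0 then w else -w) + lsum L (fun i => e (i + 1)) k := by
        intro k
        unfold lsum
        rw [Finset.sum_range_succ']
        simp [add_comm]
      by_cases h0 : e 0
      · obtain ⟨k, hk, hr⟩ := Forces.exists_lsum L _ h1 (fun i => e (i + 1))
        refine ⟨k + 1, by simpa using hk, ?_⟩
        rw [key, if_pos h0, ← add_assoc]
        exact hr
      · obtain ⟨k, hk, hr⟩ := Forces.exists_lsum L _ h2 (fun i => e (i + 1))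
        refine ⟨k + 1, by simpa using hk, ?_⟩
        rw [key, if_neg h0, ← add_assoc, ← sub_eq_add_neg]
        exact hr

end Vale.Agent.Lib.P262
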