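import Vale.Agent.Lib.P262.Plane

/-!
Helper development for P262: lifting a forcing list by one dimension, and the passage
from lists to finite families.
-/

namespace Vale.Agent.Lib.P262

open scoped RealInnerProductSpace

/-- prepend a coordinate -/
noncomputable def lift {d : ℕ} (a : ℝ) (x : EuclideanSpace ℝ (Fin d)) :
    EuclideanSpace ℝ (Fin (d + 1)) :=
  WithLp.toLp 2 (Fin.cons a x.ofLp)

theorem lift_norm_sq {d : ℕ} (a : ℝ) (x : EuclideanSpace ℝ (Fin d)) :
    ‖lift a x‖ ^ 2 = a ^ 2 + ‖x‖ ^ 2 := by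
  rw [EuclideanSpace.real_norm_sq_eq, EuclideanSpace.real_norm_sq_eq, Fin.sum_univ_succ]
  simp [lift]

theorem lift_add {d : ℕ} (a b : ℝ) (x y : EuclideanSpace ℝ (Fin d)) :
    lift a x + lift b y = lift (a + b) (x + y) := by
  ext i
  refine Fin.cases ?_ (fun j => ?_) i <;> simp [lift]

theorem lift_sub {d : ℕ} (a b : ℝ) (x y : EuclideanSpace ℝ (Fin d)) :
    lift a x - lift b y = lift (a - b) (x - y) := by
  ext i
  refine Fin.cases ?_ (fun j => ?_) i <;> simp [lift]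

theorem Forces.lift {d : ℕ} {r : ℝ} (a : ℝ) : ∀ (L : List (EuclideanSpace ℝ (Fin d)))
    (s : EuclideanSpace ℝ (Fin d)), Forces r s L →
    Forces (r + a ^ 2) (Vale.Agent.Lib.P262.lift a s) (L.map (Vale.Agent.Lib.P262.lift 0))
  | [], s, h => by
    show r + a ^ 2 ≤ ‖Vale.Agent.Lib.P262.lift a s‖ ^ 2
    rw [lift_norm_sq]
    have : r ≤ ‖s‖ ^ 2 := h
    linarith
  | w :: L, s, h => by
    rcases h with h | ⟨h1, h2⟩
    · refine Or.inl ?_
      rw [lift_norm_sq]; linarith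
    · refine Or.inr ⟨?_, ?_⟩
      · have := Forces.lift a L _ h1
        rw [lift_add, add_zero]; exact this
      · have := Forces.lift a L _ h2
        rw [lift_sub, sub_zero]; exact this

/-- `Kills d r`: some finite list in the unit ball of `ℝ^d` forces squared norm `r` from `0`. -/
def Kills (d : ℕ) (r : ℝ) : Prop :=
  ∃ L : List (EuclideanSpace ℝ (Fin d)), (∀ w ∈ L, ‖w‖ ≤ 1) ∧ Forces r 0 L

theorem Kills.succ {d : ℕ} {r : ℝ} (h : Kills d r) : Kills (d + 1) (r + 1) := by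
  obtain ⟨L, hL, hF⟩ := h
  refine ⟨lift 1 0 :: L.map (lift 0), ?_, Or.inr ⟨?_, ?_⟩⟩
  · intro x hx
    rcases List.mem_cons.mp hx with rfl | hx
    · have h1 : ‖lift (d := d) 1 0‖ ^ 2 = 1 := by rw [lift_norm_sq]; simp
      have h2 : 0 ≤ ‖lift (d := d) 1 0‖ := norm_nonneg _
      nlinarith
    · obtain ⟨w, hw, rfl⟩ := List.mem_map.mp hx
      have h1 : ‖lift 0 w‖ ^ 2 = ‖w‖ ^ 2 := by rw [lift_norm_sq]; simp
      have h2 : 0 ≤ ‖lift 0 w‖ := norm_nonneg _
      have h3 := hL w hw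
      have h4 : 0 ≤ ‖w‖ := norm_nonneg _
      nlinarith
  · have := Forces.lift 1 L 0 hF
    rw [zero_add]
    simpa using this
  · have := Forces.lift (-1) L 0 hF
    have e : (0 : EuclideanSpace ℝ (Fin (d + 1))) - lift 1 0 = lift (-1) 0 := by
      have : (0 : EuclideanSpace ℝ (Fin (d + 1))) = lift 0 0 := by
        ext i
        refine Fin.cases ?_ (fun j => ?_) i <;> simp [lift]
      rw [this, lift_sub]; simp
    rw [e]
    simpa using this

theorem Kills.add {d : ℕ} {r : ℝ} (h : Kills d r) (m : ℕ) : Kills (d + m) (r + m) := by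
  induction m with
  | zero => simpa using h
  | succ m ih =>
    have := ih.succ
    simpa [add_assoc] using this

theorem kills_two (r : ℝ) (hr : r < 3) : Kills 2 r := by
  have hperp : ∀ p : EuclideanSpace ℝ (Fin 2), ∃ p' : EuclideanSpace ℝ (Fin 2),
      ‖p'‖ = ‖p‖ ∧ ⟪p, p'⟫ = 0 := by
    intro p
    refine ⟨!₂[-p 1, p 0], ?_, ?_⟩
    · rw [EuclideanSpace.norm_eq, EuclideanSpace.norm_eq]
      simp [Fin.sum_univ_two, add_comm]
    · simp [PiLp.inner_apply, Fin.sum_univ_two]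
      ring
  obtain ⟨n, hn⟩ := pow_unbounded_of_one_lt (1 / (3 - r)) (one_lt_two)
  have h3 : 0 < 3 - r := by linarith
  have hp1 : ‖(!₂[1, 0] : EuclideanSpace ℝ (Fin 2))‖ ^ 2 = 1 := by
    rw [EuclideanSpace.real_norm_sq_eq]; simp [Fin.sum_univ_two]
  obtain ⟨L, hL, hF⟩ := plane_forces hperp r hr.le n (!₂[1, 0]) (by rw [hp1]) (by
    rw [hp1]
    have : 1 / (3 - r) * (3 - r) = 1 := by field_simp
    have h4 : (1 : ℝ) - (r - 2) = 3 - r := by ring
    rw [h4]
    nlinarith)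
  refine ⟨!₂[1, 0] :: L, ?_, Or.inr ⟨?_, ?_⟩⟩
  · intro x hx
    rcases List.mem_cons.mp hx with rfl | hx
    · have h2 : 0 ≤ ‖(!₂[1, 0] : EuclideanSpace ℝ (Fin 2))‖ := norm_nonneg _
      nlinarith
    · exact hL x hx
  · rw [zero_add]; exact hF
  · rw [zero_sub]; exact Forces.neg L _ hF

theorem kills_of_lt (d : ℕ) (hd : 2 ≤ d) (r : ℝ) (hr : r < d + 1) : Kills d r := by
  obtain ⟨m, rfl⟩ := Nat.exists_eq_add_of_le hd
  have h := (kills_two (r - m) (by push_cast at hr; linarith)).add m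
  simpa using h

end Vale.Agent.Lib.P262
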