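import Vale.Agent.Lib.P262.Forces

/-!
Helper development for P262: the forcing construction in the plane and the lift by one dimension.
-/

namespace Vale.Agent.Lib.P262

open scoped RealInnerProductSpace

section abstract_plane

variable {F : Type*} [NormedAddCommGroup F] [InnerProductSpace ℝ F]

theorem exists_unit_inner (p p' : F) (hn : ‖p'‖ = ‖p‖) (ho : ⟪p, p'⟫ = 0) (c : ℝ)
    (hq : 0 < ‖p‖ ^ 2) (hc : c ^ 2 ≤ ‖p‖ ^ 2) : ∃ w : F, ‖w‖ = 1 ∧ ⟪p, w⟫ = c := by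
  set q := ‖p‖ ^ 2 with hqdef
  have hq0 : q ≠ 0 := ne_of_gt hq
  refine ⟨(c / q) • p + (Real.sqrt (q - c ^ 2) / q) • p', ?_, ?_⟩
  · have h1 : ‖(c / q) • p + (Real.sqrt (q - c ^ 2) / q) • p'‖ ^ 2 = 1 := by
      rw [norm_add_sq_real, norm_smul, norm_smul, inner_smul_left, inner_smul_right, ho, hn]
      simp only [mul_pow, Real.norm_eq_abs, sq_abs, mul_zero, add_zero]
      rw [← hqdef, div_pow, div_pow, Real.sq_sqrt (by linarith)]
      field_simp
      ring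
    have h2 : ‖(c / q) • p + (Real.sqrt (q - c ^ 2) / q) • p'‖ ≥ 0 := norm_nonneg _
    nlinarith
  · rw [inner_add_right, inner_smul_right, inner_smul_right, ho, real_inner_self_eq_norm_sq,
      ← hqdef]
    field_simp
    simp

theorem plane_forces (hperp : ∀ p : F, ∃ p' : F, ‖p'‖ = ‖p‖ ∧ ⟪p, p'⟫ = 0) (r : ℝ) (hr : r ≤ 3) :
    ∀ (n : ℕ) (p : F), 1 ≤ ‖p‖ ^ 2 → 1 ≤ (‖p‖ ^ 2 - (r - 2)) * 2 ^ n →
      ∃ L : List F, (∀ w ∈ L, ‖w‖ ≤ 1) ∧ Forces r p L := by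
  intro n
  induction n with
  | zero =>
    intro p hp h
    obtain ⟨p', hn, ho⟩ := hperp p
    obtain ⟨w, hw, hi⟩ := exists_unit_inner p p' hn ho 0 (by linarith) (by nlinarith)
    refine ⟨[w], by simp [hw], Or.inr ⟨?_, ?_⟩⟩
    · show r ≤ ‖p + w‖ ^ 2
      rw [norm_add_sq_real, hi, hw]; linarith
    · show r ≤ ‖p - w‖ ^ 2
      rw [norm_sub_sq_real, hi, hw]; linarith
  | succ n ih =>
    intro p hp h
    obtain ⟨p', hn, ho⟩ := hperp p
    by_cases hcase : r - 1 ≤ ‖p‖ ^ 2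
    · obtain ⟨w, hw, hi⟩ := exists_unit_inner p p' hn ho 0 (by linarith) (by nlinarith)
      refine ⟨[w], by simp [hw], Or.inr ⟨?_, ?_⟩⟩
      · show r ≤ ‖p + w‖ ^ 2
        rw [norm_add_sq_real, hi, hw]; linarith
      · show r ≤ ‖p - w‖ ^ 2
        rw [norm_sub_sq_real, hi, hw]; linarith
    · rw [not_le] at hcase
      have hc0 : 0 < (r - 1 - ‖p‖ ^ 2) / 2 := by linarith
      have hc1 : (r - 1 - ‖p‖ ^ 2) / 2 ≤ 1 / 2 := by linarith
      obtain ⟨w, hw, hi⟩ := exists_unit_inner p p' hn ho ((r - 1 - ‖p‖ ^ 2) / 2) (by linarith)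
        (by nlinarith)
      have hplus : ‖p + w‖ ^ 2 = r := by
        rw [norm_add_sq_real, hi, hw]; ring
      have hminus : ‖p - w‖ ^ 2 = 2 * ‖p‖ ^ 2 + 2 - r := by
        rw [norm_sub_sq_real, hi, hw]; ring
      have hpos : 0 < ‖p‖ ^ 2 - (r - 2) := by
        by_contra hneg
        rw [not_lt] at hneg
        have : (‖p‖ ^ 2 - (r - 2)) * 2 ^ (n + 1) ≤ 0 :=
          mul_nonpos_of_nonpos_of_nonneg hneg (by positivity)
        linarith
      obtain ⟨L, hL, hF⟩ := ih (p - w) (by rw [hminus]; linarith) (by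
        rw [hminus]
        have : (2 * ‖p‖ ^ 2 + 2 - r - (r - 2)) * 2 ^ n = (‖p‖ ^ 2 - (r - 2)) * 2 ^ (n + 1) := by
          ring
        rw [this]; exact h)
      refine ⟨w :: L, ?_, Or.inr ⟨Forces.of_le (le_of_eq hplus.symm) L, hF⟩⟩
      intro x hx
      rcases List.mem_cons.mp hx with rfl | hx
      · exact le_of_eq hw
      · exact hL x hx

end abstract_plane

end Vale.Agent.Lib.P262
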