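import Vale.Agent.Lib.P262.Forces

/-!
Helper development for P262: in the Euclidean plane every finite sequence in the unit disc has a
signing all of whose partial sums have norm at most `√3`.
-/

namespace Vale.Agent.Lib.P262

open scoped RealInnerProductSpace

section alive

variable {E : Type*} [NormedAddCommGroup E]

/-- some signing of `L`, started from `s`, keeps all partial sums of squared norm at most `r` -/
def Alive (r : ℝ) : E → List E → Prop
  | s, [] => ‖s‖ ^ 2 ≤ r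
  | s, w :: L => ‖s‖ ^ 2 ≤ r ∧ (Alive r (s + w) L ∨ Alive r (s - w) L)

theorem Alive.exists_lsum {r : ℝ} : ∀ (L : List E) (s : E), Alive r s L →
    ∃ e : ℕ → Bool, ∀ k, k ≤ L.length → ‖s + lsum L e k‖ ^ 2 ≤ r
  | [], s, h => ⟨fun _ => true, fun k hk => by
      have : k = 0 := by simpa using hk
      subst this
      simpa [lsum, Alive] using h⟩
  | w :: L, s, h => by
    obtain ⟨h0, h1 | h1⟩ := h
    · obtain ⟨e, he⟩ := Alive.exists_lsum L _ h1
      refine ⟨fun i => Nat.casesOn i true e, fun k hk => ?_⟩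
      cases k with
      | zero => simpa [lsum] using h0
      | succ k =>
        have key : lsum (w :: L) (fun i => Nat.casesOn i true e) (k + 1) = w + lsum L e k := by
          unfold lsum
          rw [Finset.sum_range_succ']
          simp [add_comm]
        rw [key, ← add_assoc]
        exact he k (by simpa using hk)
    · obtain ⟨e, he⟩ := Alive.exists_lsum L _ h1
      refine ⟨fun i => Nat.casesOn i false e, fun k hk => ?_⟩
      cases k with
      | zero => simpa [lsum] using h0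
      | succ k =>
        have key : lsum (w :: L) (fun i => Nat.casesOn i false e) (k + 1) = -w + lsum L e k := by
          unfold lsum
          rw [Finset.sum_range_succ']
          simp [add_comm]
        rw [key, ← add_assoc, ← sub_eq_add_neg]
        exact he k (by simpa using hk)

end alive

/-- Gram determinant of three plane vectors vanishes. -/
theorem gram_plane (u v w : EuclideanSpace ℝ (Fin 2)) :
    ‖u‖ ^ 2 * ‖v‖ ^ 2 * ‖w‖ ^ 2 + 2 * ⟪u, v⟫ * ⟪u, w⟫ * ⟪v, w⟫ - ‖u‖ ^ 2 * ⟪v, w⟫ ^ 2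
      - ‖v‖ ^ 2 * ⟪u, w⟫ ^ 2 - ‖w‖ ^ 2 * ⟪u, v⟫ ^ 2 = 0 := by
  simp only [EuclideanSpace.real_norm_sq_eq, PiLp.inner_apply, Fin.sum_univ_two,
    RCLike.inner_apply, conj_trivial]
  ring

theorem pair_bound {F : Type*} [NormedAddCommGroup F] [InnerProductSpace ℝ F] (u v : F)
    (hu : ‖u‖ ≤ 1) (hv : ‖v‖ ≤ 1) (h1 : ¬ ‖u + v‖ ≤ 1) (h2 : ¬ ‖u - v‖ ≤ 1) :
    2 * |⟪u, v⟫| < ‖u‖ ^ 2 ∧ 2 * |⟪u, v⟫| < ‖v‖ ^ 2 := by
  have e1 : 1 < ‖u + v‖ ^ 2 := by
    have : 1 < ‖u + v‖ := not_le.mp h1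
    nlinarith
  have e2 : 1 < ‖u - v‖ ^ 2 := by
    have : 1 < ‖u - v‖ := not_le.mp h2
    nlinarith
  rw [norm_add_sq_real] at e1
  rw [norm_sub_sq_real] at e2
  have a1 : ‖u‖ ^ 2 ≤ 1 := by have := norm_nonneg u; nlinarith
  have b1 : ‖v‖ ^ 2 ≤ 1 := by have := norm_nonneg v; nlinarith
  constructor <;> rcases abs_cases ⟪u, v⟫ with ⟨h, _⟩ | ⟨h, _⟩ <;> rw [h] <;> linarith

/-- Among three vectors of the unit disc two have a sum or a difference in the unit disc. -/
theorem three_vectors (u v w : EuclideanSpace ℝ (Fin 2)) (hu : ‖u‖ ≤ 1) (hv : ‖v‖ ≤ 1)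
    (hw : ‖w‖ ≤ 1) :
    ‖u + v‖ ≤ 1 ∨ ‖u - v‖ ≤ 1 ∨ ‖u + w‖ ≤ 1 ∨ ‖u - w‖ ≤ 1 ∨ ‖v + w‖ ≤ 1 ∨ ‖v - w‖ ≤ 1 := by
  by_contra hcon
  simp only [not_or] at hcon
  obtain ⟨h1, h2, h3, h4, h5, h6⟩ := hcon
  obtain ⟨xa, xb⟩ := pair_bound u v hu hv h1 h2
  obtain ⟨ya, yc⟩ := pair_bound u w hu hw h3 h4
  obtain ⟨zb, zc⟩ := pair_bound v w hv hw h5 h6
  have G := gram_plane u v w
  set a := ‖u‖ ^ 2
  set b := ‖v‖ ^ 2
  set c := ‖w‖ ^ 2
  set x := ⟪u, v⟫
  set y := ⟪u, w⟫
  set z := ⟪v, w⟫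
  have X0 := abs_nonneg x
  have Y0 := abs_nonneg y
  have Z0 := abs_nonneg z
  have a0 : 0 < a := by linarith
  have b0 : 0 < b := by linarith
  have c0 : 0 < c := by linarith
  have hx2 : 4 * x ^ 2 < a * b := by
    have : (2 * |x|) * (2 * |x|) < a * b := mul_lt_mul'' xa xb (by positivity) (by positivity)
    have e : |x| * |x| = x ^ 2 := by rw [← abs_mul, ← sq, abs_of_nonneg (sq_nonneg x)]
    nlinarith
  have hy2 : 4 * y ^ 2 < a * c := by
    have : (2 * |y|) * (2 * |y|) < a * c := mul_lt_mul'' ya yc (by positivity) (by positivity)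
    have e : |y| * |y| = y ^ 2 := by rw [← abs_mul, ← sq, abs_of_nonneg (sq_nonneg y)]
    nlinarith
  have hz2 : 4 * z ^ 2 < b * c := by
    have : (2 * |z|) * (2 * |z|) < b * c := mul_lt_mul'' zb zc (by positivity) (by positivity)
    have e : |z| * |z| = z ^ 2 := by rw [← abs_mul, ← sq, abs_of_nonneg (sq_nonneg z)]
    nlinarith
  have hxyz : 8 * (|x| * |y| * |z|) < a * c * b := by
    have h12 : (2 * |x|) * (2 * |y|) < a * c := mul_lt_mul'' xa yc (by positivity) (by positivity)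
    have h123 : (2 * |x|) * (2 * |y|) * (2 * |z|) < a * c * b :=
      mul_lt_mul'' h12 zb (by positivity) (by positivity)
    nlinarith
  have hlow : -(|x| * |y| * |z|) ≤ x * y * z := by
    have : |x * y * z| = |x| * |y| * |z| := by rw [abs_mul, abs_mul]
    have h := neg_abs_le (x * y * z)
    rw [this] at h
    exact h
  have t1 : a * (4 * z ^ 2) < a * (b * c) := mul_lt_mul_of_pos_left hz2 a0
  have t2 : b * (4 * y ^ 2) < b * (a * c) := mul_lt_mul_of_pos_left hy2 b0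
  have t3 : c * (4 * x ^ 2) < c * (a * b) := mul_lt_mul_of_pos_left hx2 c0
  nlinarith

end Vale.Agent.Lib.P262
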