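import Vale.Agent.Lib.P262.Upper2

namespace Vale.Agent.Lib.P262

open scoped RealInnerProductSpace

theorem par_law {F : Type*} [NormedAddCommGroup F] [InnerProductSpace ℝ F] (m h : F) :
    ‖m + h‖ ^ 2 + ‖m - h‖ ^ 2 = 2 * ‖m‖ ^ 2 + 2 * ‖h‖ ^ 2 := by
  rw [norm_add_sq_real, norm_sub_sq_real]; ring

theorem sq_le_one_of {F : Type*} [NormedAddCommGroup F] (m : F) (h : ‖m‖ ≤ 1) : ‖m‖ ^ 2 ≤ 1 := by
  have := norm_nonneg m; nlinarith

theorem le_one_of_sq {F : Type*} [NormedAddCommGroup F] (m : F) (h : ‖m‖ ^ 2 ≤ 1) : ‖m‖ ≤ 1 := by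
  have := norm_nonneg m; nlinarith

/-- The invariant: two undecided vectors `m`, `h` of the unit disc. -/
theorem alive_pair : ∀ (L : List (EuclideanSpace ℝ (Fin 2))), (∀ w ∈ L, ‖w‖ ≤ 1) →
    ∀ m h : EuclideanSpace ℝ (Fin 2), ‖m‖ ≤ 1 → ‖h‖ ≤ 1 →
      Alive 3 (m + h) L ∨ Alive 3 (m - h) L
  | [], _, m, h, hm, hh => by
    have p := par_law m h
    have a := sq_le_one_of m hm
    have b := sq_le_one_of h hh
    by_cases c : ‖m + h‖ ^ 2 ≤ 3
    · exact Or.inl c
    · refine Or.inr ?_
      show ‖m - h‖ ^ 2 ≤ 3
      rw [not_le] at c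
      linarith
  | v :: L, hL, m, h, hm, hh => by
    have hv : ‖v‖ ≤ 1 := hL v (List.mem_cons_self)
    have hL' : ∀ w ∈ L, ‖w‖ ≤ 1 := fun w hw => hL w (List.mem_cons_of_mem _ hw)
    have p := par_law m h
    have a := sq_le_one_of m hm
    have b := sq_le_one_of h hh
    -- a single vector `s` of the unit disc survives
    have single : ∀ s : EuclideanSpace ℝ (Fin 2), ‖s‖ ≤ 1 → Alive 3 s (v :: L) := by
      intro s hs
      exact ⟨by have := sq_le_one_of s hs; linarith, alive_pair L hL' s v hs hv⟩
    by_cases c1 : ‖m + h‖ ^ 2 ≤ 3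
    · by_cases c2 : ‖m - h‖ ^ 2 ≤ 3
      · rcases three_vectors m h v hm hh hv with t | t | t | t | t | t
        · exact Or.inl (single _ t)
        · exact Or.inr (single _ t)
        · rcases alive_pair L hL' (m + v) h t hh with r | r
          · refine Or.inl ⟨c1, Or.inl ?_⟩
            have e : m + h + v = m + v + h := by abel
            rw [e]; exact r
          · refine Or.inr ⟨c2, Or.inl ?_⟩
            have e : m - h + v = m + v - h := by abel
            rw [e]; exact r
        · rcases alive_pair L hL' (m - v) h t hh with r | r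
          · refine Or.inl ⟨c1, Or.inr ?_⟩
            have e : m + h - v = m - v + h := by abel
            rw [e]; exact r
          · refine Or.inr ⟨c2, Or.inr ?_⟩
            have e : m - h - v = m - v - h := by abel
            rw [e]; exact r
        · rcases alive_pair L hL' m (h + v) hm t with r | r
          · refine Or.inl ⟨c1, Or.inl ?_⟩
            have e : m + h + v = m + (h + v) := by abel
            rw [e]; exact r
          · refine Or.inr ⟨c2, Or.inr ?_⟩
            have e : m - h - v = m - (h + v) := by abel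
            rw [e]; exact r
        · rcases alive_pair L hL' m (h - v) hm t with r | r
          · refine Or.inl ⟨c1, Or.inr ?_⟩
            have e : m + h - v = m + (h - v) := by abel
            rw [e]; exact r
          · refine Or.inr ⟨c2, Or.inl ?_⟩
            have e : m - h + v = m - (h - v) := by abel
            rw [e]; exact r
      · rw [not_le] at c2
        exact Or.inl (single _ (le_one_of_sq _ (by linarith)))
    · rw [not_le] at c1
      exact Or.inr (single _ (le_one_of_sq _ (by linarith)))

theorem alive_zero (L : List (EuclideanSpace ℝ (Fin 2))) (hL : ∀ w ∈ L, ‖w‖ ≤ 1) :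
    Alive 3 0 L := by
  rcases alive_pair L hL 0 0 (by simp) (by simp) with h | h <;> simpa using h

/-- Every finite family in the unit disc has signs keeping all initial sums within `√3`. -/
theorem plane_upper (N : ℕ) (v : Fin N → EuclideanSpace ℝ (Fin 2)) (hv : ∀ i, ‖v i‖ ≤ 1) :
    ∃ ε : Fin N → ℝ, (∀ i, ε i = 1 ∨ ε i = -1) ∧
      ∀ k : ℕ, k ≤ N → ‖∑ i : Fin N with i.val < k, ε i • v i‖ ^ 2 ≤ 3 := by
  have hL : ∀ w ∈ List.ofFn v, ‖w‖ ≤ 1 := by
    intro w hw
    obtain ⟨i, rfl⟩ := (List.mem_ofFn' v w).mp hw
    exact hv i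
  obtain ⟨e, he⟩ := Alive.exists_lsum _ _ (alive_zero (List.ofFn v) hL)
  refine ⟨fun i => if e i.val then 1 else -1, fun i => by by_cases h : e i.val <;> simp [h], ?_⟩
  intro k hk
  have h := he k (by simpa using hk)
  rw [zero_add] at h
  have key : ∑ i : Fin N with i.val < k, (if e i.val then (1 : ℝ) else -1) • v i =
      lsum (List.ofFn v) e k := by
    unfold lsum
    rw [Finset.sum_filter]
    have h1 : ∑ i : Fin N, (if i.val < k then (if e i.val then (1 : ℝ) else -1) • v i else 0) =
        ∑ i : Fin N, (fun j : ℕ => if j < k then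
          (if e j then (List.ofFn v).getD j 0 else -(List.ofFn v).getD j 0) else 0) i.val := by
      refine Finset.sum_congr rfl (fun i _ => ?_)
      have hg : (List.ofFn v).getD i.val 0 = v i := by
        rw [List.getD_eq_getElem _ _ (by simp)]
        simp
      beta_reduce
      rw [hg]
      by_cases h2 : e i.val <;> simp [h2]
    rw [h1]
    refine (Fin.sum_univ_eq_sum_range (fun j : ℕ => if j < k then
          (if e j then (List.ofFn v).getD j 0 else -(List.ofFn v).getD j 0) else 0) N).trans ?_
    rw [← Finset.sum_filter]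
    have hfil : (Finset.range N).filter (fun i => i < k) = Finset.range k := by
      ext i
      simp only [Finset.mem_filter, Finset.mem_range]
      omega
    rw [hfil]
  rw [key]
  exact h

end Vale.Agent.Lib.P262
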